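import Vale.Agent.P090.Words

open List

namespace Vale.Agent.P090

/-- Vertices of the coloured cubic graph of level `g`. -/
abbrev Vtx (g : ℕ) : Type := Grp (Fin 3) g × (Sym2 (Grp (Fin 3) g) → Fin 4)

noncomputable instance (g : ℕ) : Fintype (Vtx g) := Fintype.ofFinite _

/-- All coloured cubic graphs together. -/
abbrev Core : Type := Σ g : ℕ, Vtx g

/-- The neighbour along the edge of type `i`. -/
def nb (i : Fin 3) (b : Core) : Core := ⟨b.1, gen b.1 i * b.2.1, b.2.2⟩

/-- The colour of the edge of type `i`. -/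
def col (b : Core) (i : Fin 3) : Fin 4 := b.2.2 s(b.2.1, gen b.1 i * b.2.1)

theorem nb_nb (i : Fin 3) (b : Core) : nb i (nb i b) = b := by
  obtain ⟨g, ω, c⟩ := b
  exact congrArg (fun x => (⟨g, x, c⟩ : Core)) (gen_gen g i ω)

theorem col_nb (i : Fin 3) (b : Core) : col (nb i b) i = col b i := by
  obtain ⟨g, ω, c⟩ := b
  change c s(gen g i * ω, gen g i * (gen g i * ω)) = c s(ω, gen g i * ω)
  rw [gen_gen, Sym2.eq_swap]

/-- The walk with a given sequence of edge types. -/
def walk (b : Core) (τ : ℕ → Fin 3) : ℕ → Core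
  | 0 => b
  | j + 1 => nb (τ j) (walk b τ j)

theorem walk_congr (b : Core) {τ τ' : ℕ → Fin 3} (n : ℕ) (h : ∀ j < n, τ j = τ' j) :
    walk b τ n = walk b τ' n := by
  induction n with
  | zero => rfl
  | succ n ih => rw [walk, walk, ih fun j hj => h j (by omega), h n (by omega)]

/-- The word of the first `j` types, read backwards. -/
def word (τ : ℕ → Fin 3) : ℕ → List (Fin 3)
  | 0 => []
  | j + 1 => τ j :: word τ j

theorem word_length (τ : ℕ → Fin 3) (j : ℕ) : (word τ j).length = j := by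
  induction j with
  | zero => rfl
  | succ j ih => rw [word, length_cons, ih]

theorem word_chain {τ : ℕ → Fin 3} {g : ℕ} (h : ∀ j, j + 1 < g → τ j ≠ τ (j + 1)) (j : ℕ)
    (hj : j ≤ g) : (word τ j).IsChain (· ≠ ·) := by
  induction j with
  | zero => exact List.IsChain.nil
  | succ j ih =>
    cases j with
    | zero => exact List.IsChain.singleton _
    | succ j => exact isChain_cons_cons.2 ⟨(h j (by omega)).symm, ih (by omega)⟩

/-- The group element reached after `j` steps. -/
def pos (g : ℕ) (τ : ℕ → Fin 3) (j : ℕ) : Grp (Fin 3) g := ((word τ j).map (gen g)).prod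

theorem walk_eq (g : ℕ) (v : Vtx g) (τ : ℕ → Fin 3) (j : ℕ) :
    walk ⟨g, v⟩ τ j = ⟨g, pos g τ j * v.1, v.2⟩ := by
  induction j with
  | zero => simp [walk, pos, word]
  | succ j ih =>
    rw [walk, ih]
    simp only [nb, pos, word, map_cons, prod_cons, mul_assoc]

theorem pos_inj {τ : ℕ → Fin 3} {g : ℕ} (h : ∀ j, j + 1 < g → τ j ≠ τ (j + 1)) {j l : ℕ}
    (hj : j ≤ g) (hl : l ≤ g) (e : pos g τ j = pos g τ l) : j = l := by
  have := congrArg (fun q => (wd q).length) e
  simp only [pos] at this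
  rwa [wd_prod _ (by rw [word_length]; exact hj), wd_prod _ (by rw [word_length]; exact hl),
    red_of_chain (word_chain h j hj), red_of_chain (word_chain h l hl), word_length,
    word_length] at this

theorem count_match {g : ℕ} {τ : ℕ → Fin 3} (h : ∀ j, j + 1 < g → τ j ≠ τ (j + 1))
    (a : ℕ → Fin 4) :
    Nat.card {v : Vtx g // ∀ j < g, col (walk ⟨g, v⟩ τ j) (τ j) = a j} * 4 ^ g ≤
      Nat.card (Vtx g) := by
  classical
  let e : Grp (Fin 3) g → Fin g → Sym2 (Grp (Fin 3) g) :=
    fun ω j => s(pos g τ j * ω, pos g τ (j + 1) * ω)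
  have he : ∀ ω, Function.Injective (e ω) := by
    intro ω j l hjl
    have hj := j.2
    have hl := l.2
    rcases Sym2.eq_iff.1 hjl with ⟨h1, -⟩ | ⟨h1, h2⟩
    · exact Fin.ext (pos_inj h (by omega) (by omega) (mul_right_cancel h1))
    · have a1 := pos_inj h (by omega) (by omega) (mul_right_cancel h1)
      have a2 := pos_inj h (by omega) (by omega) (mul_right_cancel h2)
      omega
  have hc : ∀ (v : Vtx g) (j : Fin g), col (walk ⟨g, v⟩ τ j) (τ j) = v.2 (e v.1 j) := by
    intro v j
    rw [walk_eq]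
    simp only [col, e, pos, word, map_cons, prod_cons, mul_assoc]
  have key := Nat.card_le_card_of_injective
    (fun p : {v : Vtx g // ∀ j < g, col (walk ⟨g, v⟩ τ j) (τ j) = a j} × (Fin g → Fin 4) =>
      ((p.1.1.1, Function.extend (e p.1.1.1) p.2 p.1.1.2) : Vtx g)) ?_
  · simpa [Nat.card_prod] using key
  rintro ⟨⟨⟨ω, c⟩, hv⟩, a1⟩ ⟨⟨⟨ω', c'⟩, hv'⟩, a2⟩ hh
  obtain ⟨h1, h2⟩ := Prod.mk.inj hh
  dsimp only at h1 h2
  subst h1
  refine Prod.ext (Subtype.ext (Prod.ext rfl (funext fun x => ?_))) (funext fun j => ?_)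
  · by_cases hx : ∃ j, e ω j = x
    · obtain ⟨j, rfl⟩ := hx
      exact ((hc (ω, c) j).symm.trans (hv j j.2)).trans ((hv' j j.2).symm.trans (hc (ω, c') j))
    · have := congrFun h2 x
      rwa [Function.extend_apply' _ _ _ hx, Function.extend_apply' _ _ _ hx] at this
  · have := congrFun h2 (e ω j)
    rwa [(he ω).extend_apply, (he ω).extend_apply] at this

/-- Vertices from which some walk of length `g` has the colours of a walk from `Cs`. -/
def Bad (Cs : Finset Core) (g : ℕ) (v : Core) : Prop :=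
  ∃ b ∈ Cs, ∃ τ : ℕ → Fin 3, (∀ j, τ j ≠ τ (j + 1)) ∧
    ∀ j < g, col (walk v τ j) (τ j) = col (walk b τ j) (τ j)

open Classical in
theorem count_bad (Cs : Finset Core) (g : ℕ) :
    (Finset.univ.filter fun v : Vtx g => Bad Cs g ⟨g, v⟩).card * 4 ^ g ≤
      Cs.card * 3 ^ g * Fintype.card (Vtx g) := by
  let ex : (Fin g → Fin 3) → ℕ → Fin 3 := fun t j => if h : j < g then t ⟨j, h⟩ else 0
  let A : Core × (Fin g → Fin 3) → Finset (Vtx g) := fun p => Finset.univ.filter fun v =>
    (∀ j, j + 1 < g → ex p.2 j ≠ ex p.2 (j + 1)) ∧ ∀ j < g,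
      col (walk ⟨g, v⟩ (ex p.2) j) (ex p.2 j) = col (walk p.1 (ex p.2) j) (ex p.2 j)
  have hsub : (Finset.univ.filter fun v : Vtx g => Bad Cs g ⟨g, v⟩) ⊆
      (Cs ×ˢ Finset.univ).biUnion A := by
    intro v hv
    obtain ⟨b, hb, τ, h1, h2⟩ := (Finset.mem_filter.1 hv).2
    have e : ∀ j < g, ex (fun i => τ i) j = τ j := fun j hj => dif_pos hj
    refine Finset.mem_biUnion.2 ⟨(b, fun i => τ i), by simp [hb], Finset.mem_filter.2
      ⟨Finset.mem_univ _, fun j hj => ?_, fun j hj => ?_⟩⟩
    · rw [e j (by omega), e _ hj]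
      exact h1 j
    · rw [e j hj, walk_congr _ j fun l hl => e l (by omega),
        walk_congr _ j fun l hl => e l (by omega)]
      exact h2 j hj
  have hA : ∀ p ∈ Cs ×ˢ (Finset.univ : Finset (Fin g → Fin 3)),
      (A p).card * 4 ^ g ≤ Fintype.card (Vtx g) := by
    intro p _
    by_cases hp : ∀ j, j + 1 < g → ex p.2 j ≠ ex p.2 (j + 1)
    · have := count_match hp fun j => col (walk p.1 (ex p.2) j) (ex p.2 j)
      rw [Nat.card_eq_fintype_card, Nat.card_eq_fintype_card, Fintype.card_subtype] at this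
      refine le_trans (Nat.mul_le_mul_right _ (Finset.card_le_card fun v hv => ?_)) this
      exact Finset.mem_filter.2 ⟨Finset.mem_univ _, (Finset.mem_filter.1 hv).2.2⟩
    · have : A p = ∅ := Finset.filter_eq_empty_iff.2 fun v _ h => hp h.1
      simp [this]
  calc _ ≤ (∑ p ∈ Cs ×ˢ Finset.univ, (A p).card) * 4 ^ g :=
        Nat.mul_le_mul_right _ ((Finset.card_le_card hsub).trans Finset.card_biUnion_le)
    _ = ∑ p ∈ Cs ×ˢ Finset.univ, (A p).card * 4 ^ g := Finset.sum_mul _ _ _
    _ ≤ _ := by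
      have := Finset.sum_le_card_nsmul _ _ _ hA
      simpa using this

/-- The forest inequality. -/
theorem forest {Z : Type} [DecidableEq Z] (J : Fin 3 → Z → Z) (hJ : ∀ i z, J i (J i z) = z)
    (f : Z → ℝ) (hf : ∀ z, 0 ≤ f z) (A : Finset Z)
    (hA : ∀ (z : ℕ → Z) (τ : ℕ → Fin 3), (∀ j, τ j ≠ τ (j + 1)) →
      (∀ j, z (j + 1) = J (τ j) (z j)) → ∃ j, z j ∉ A) :
    ∑ z ∈ A, ∑ i, (if J i z ∈ A then min (f z) (f (J i z)) else 0) ≤ 2 * ∑ z ∈ A, f z := by
  induction A using Finset.strongInduction with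
  | H A ih =>
    rcases A.eq_empty_or_nonempty with rfl | ⟨z0, hz0⟩
    · simp
    have hleaf : ∃ z ∈ A, ∃ i, ∀ i', i' ≠ i → J i' z ∉ A := by
      by_contra hcon
      push Not at hcon
      choose! nx h1 h2 using hcon
      let p : ℕ → Z × Fin 3 := fun n => Nat.rec (z0, nx z0 0)
        (fun _ q => (J q.2 q.1, nx (J q.2 q.1) q.2)) n
      have hp : ∀ n, (p n).1 ∈ A ∧ J (p n).2 (p n).1 ∈ A := by
        intro n
        induction n with
        | zero => exact ⟨hz0, h2 z0 hz0 0⟩
        | succ n ih => exact ⟨ih.2, h2 _ ih.2 _⟩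
      obtain ⟨j, hj⟩ := hA (fun n => (p n).1) (fun n => (p n).2)
        (fun n => (h1 _ (hp n).2 _).symm) fun n => rfl
      exact hj (hp j).1
    obtain ⟨z, hz, i, hi⟩ := hleaf
    have k1 := ih (A.erase z) (Finset.erase_ssubset hz) fun y τ h1 h2 => by
      obtain ⟨j, hj⟩ := hA y τ h1 h2
      exact ⟨j, fun h => hj (Finset.mem_of_mem_erase h)⟩
    have k2 : ∑ i', (if J i' z ∈ A then min (f z) (f (J i' z)) else 0) ≤ f z := by
      rw [Finset.sum_eq_single i (fun i' _ h => if_neg (hi i' h)) (by simp)]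
      split_ifs
      · exact min_le_left _ _
      · exact hf z
    have k3 : ∑ y ∈ A.erase z, ∑ i', (if J i' y ∈ A then min (f y) (f (J i' y)) else 0) ≤
        ∑ y ∈ A.erase z, ∑ i', (if J i' y ∈ A.erase z then min (f y) (f (J i' y)) else 0) +
          f z := by
      have e : ∀ y ∈ A.erase z, ∑ i', (if J i' y ∈ A then min (f y) (f (J i' y)) else 0) ≤
          ∑ i', (if J i' y ∈ A.erase z then min (f y) (f (J i' y)) else 0) +
            if y = J i z then f z else 0 := by
        intro y hy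
        have e2 : (if y = J i z then f z else 0) =
            ∑ i', if i' = i ∧ y = J i z then f z else 0 := by
          by_cases h : y = J i z <;> simp [h]
        rw [e2, ← Finset.sum_add_distrib]
        refine Finset.sum_le_sum fun i' _ => ?_
        by_cases h : J i' y = z
        · have h3 : y = J i' z := by rw [← h, hJ]
          have h4 : i' = i := by
            by_contra h5
            exact hi i' h5 (h3 ▸ Finset.mem_of_mem_erase hy)
          rw [h, if_pos hz, if_neg (Finset.notMem_erase z A), if_pos ⟨h4, h4 ▸ h3⟩, zero_add]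
          exact min_le_right _ _
        · have h3 : (0 : ℝ) ≤ if i' = i ∧ y = J i z then f z else 0 := by
            split_ifs
            · exact hf z
            · exact le_rfl
          simp only [Finset.mem_erase, ne_eq, h, not_false_eq_true, true_and]
          linarith
      refine (Finset.sum_le_sum e).trans ?_
      rw [Finset.sum_add_distrib, Finset.sum_ite_eq']
      have : (if J i z ∈ A.erase z then f z else 0) ≤ f z := by
        split_ifs
        · exact le_rfl
        · exact hf z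
      linarith
    rw [← Finset.add_sum_erase A _ hz, ← Finset.add_sum_erase A _ hz]
    linarith

end Vale.Agent.P090
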