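import Mathlib

namespace Vale.Agent.P090

variable {M : Type} [MetricSpace M]

/-- Real Lipschitz functions vanishing at the base point, as a subspace of all functions. -/
def lipSub (o : M) : Submodule ℝ (M → ℝ) where
  carrier := {f | f o = 0 ∧ ∃ K : ℝ, ∀ x y, |f x - f y| ≤ K * dist x y}
  zero_mem' := ⟨rfl, 0, fun x y => by simp⟩
  add_mem' := by
    rintro f g ⟨hf, K, hK⟩ ⟨hg, K', hK'⟩
    refine ⟨by simp [hf, hg], K + K', fun x y => ?_⟩
    have h := abs_add_le (f x - f y) (g x - g y)
    have e : (f + g) x - (f + g) y = f x - f y + (g x - g y) := by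
      simp only [Pi.add_apply]
      ring
    rw [e, add_mul]
    linarith [hK x y, hK' x y]
  smul_mem' := by
    rintro c f ⟨hf, K, hK⟩
    refine ⟨by simp [hf], |c| * K, fun x y => ?_⟩
    simp only [Pi.smul_apply, smul_eq_mul]
    rw [← mul_sub, abs_mul, mul_assoc]
    exact mul_le_mul_of_nonneg_left (hK x y) (abs_nonneg c)

/-- The vector space of real Lipschitz functions on `M` vanishing at `o`. -/
def Lip0 (o : M) : Type := lipSub o

instance (o : M) : AddCommGroup (Lip0 o) := inferInstanceAs (AddCommGroup (lipSub o))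

instance (o : M) : Module ℝ (Lip0 o) := inferInstanceAs (Module ℝ (lipSub o))

/-- The underlying function. -/
def Lip0.fn {o : M} (f : Lip0 o) : M → ℝ := Subtype.val f

/-- The Lipschitz constant. -/
noncomputable def Lip0.lipConst {o : M} (f : Lip0 o) : ℝ :=
  ⨆ p : M × M, |f.fn p.1 - f.fn p.2| / dist p.1 p.2

theorem Lip0.le_lipConst {o : M} (f : Lip0 o) (x y : M) :
    |f.fn x - f.fn y| ≤ f.lipConst * dist x y := by
  obtain ⟨K, hK⟩ := (Subtype.property f).2
  rcases eq_or_ne x y with rfl | h
  · simp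
  · rw [← div_le_iff₀ (dist_pos.2 h)]
    refine le_ciSup (f := fun p : M × M => |f.fn p.1 - f.fn p.2| / dist p.1 p.2) ⟨|K|, ?_⟩ (x, y)
    rintro _ ⟨p, rfl⟩
    refine div_le_of_le_mul₀ dist_nonneg (abs_nonneg K) ((hK _ _).trans ?_)
    exact mul_le_mul_of_nonneg_right (le_abs_self K) dist_nonneg

theorem Lip0.lipConst_le {o : M} (f : Lip0 o) {K : ℝ} (hK : 0 ≤ K)
    (h : ∀ x y, |f.fn x - f.fn y| ≤ K * dist x y) : f.lipConst ≤ K :=
  Real.iSup_le (fun p => div_le_of_le_mul₀ dist_nonneg hK (h p.1 p.2)) hK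

theorem Lip0.lipConst_nonneg {o : M} (f : Lip0 o) : 0 ≤ f.lipConst :=
  Real.iSup_nonneg fun _ => div_nonneg (abs_nonneg _) dist_nonneg

theorem Lip0.fn_base {o : M} (f : Lip0 o) : f.fn o = 0 := (Subtype.property f).1

/-- The Lipschitz constant is a norm. -/
noncomputable def lipNorm (o : M) : AddGroupNorm (Lip0 o) where
  toFun := Lip0.lipConst
  map_zero' := le_antisymm (Lip0.lipConst_le _ le_rfl fun x y => by
    change |(0 : ℝ) - 0| ≤ _
    simp) (Lip0.lipConst_nonneg _)
  add_le' f g := Lip0.lipConst_le _ (add_nonneg f.lipConst_nonneg g.lipConst_nonneg) fun x y => by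
    have h := abs_add_le (f.fn x - f.fn y) (g.fn x - g.fn y)
    have e : (f + g).fn x - (f + g).fn y = f.fn x - f.fn y + (g.fn x - g.fn y) := by
      change f.fn x + g.fn x - (f.fn y + g.fn y) = _
      ring
    rw [e, add_mul]
    linarith [f.le_lipConst x y, g.le_lipConst x y]
  neg' f := by
    unfold Lip0.lipConst
    congr 1
    funext p
    change |-f.fn p.1 - -f.fn p.2| / _ = _
    rw [← abs_neg]
    congr 2
    ring
  eq_zero_of_map_eq_zero' f h := by
    refine Subtype.ext (funext fun x => ?_)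
    have := f.le_lipConst x o
    rw [h, zero_mul, f.fn_base, sub_zero] at this
    exact abs_nonpos_iff.1 this

noncomputable instance (o : M) : NormedAddCommGroup (Lip0 o) :=
  (lipNorm o).toNormedAddCommGroup

noncomputable instance (o : M) : NormedSpace ℝ (Lip0 o) where
  norm_smul_le c f := Lip0.lipConst_le _ (mul_nonneg (norm_nonneg c) f.lipConst_nonneg)
    fun x y => by
      change |c * f.fn x - c * f.fn y| ≤ |c| * f.lipConst * dist x y
      rw [← mul_sub, abs_mul, mul_assoc]
      exact mul_le_mul_of_nonneg_left (f.le_lipConst x y) (abs_nonneg c)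

/-- Evaluation at a point, as a continuous functional on the Lipschitz functions. -/
noncomputable def delta (o x : M) : StrongDual ℝ (Lip0 o) :=
  LinearMap.mkContinuous
    { toFun := fun f => f.fn x, map_add' := fun _ _ => rfl, map_smul' := fun _ _ => rfl }
    (dist x o) fun f => by
      have := f.le_lipConst x o
      rw [f.fn_base, sub_zero, mul_comm] at this
      exact this

/-- The Lipschitz-free space: the closed linear span of the evaluations in the dual. -/
noncomputable def FreeSpace (o : M) : Submodule ℝ (StrongDual ℝ (Lip0 o)) :=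
  (Submodule.span ℝ (Set.range (delta o))).topologicalClosure

/-- The bounded approximation property of a real normed space. -/
def HasBAP (X : Type) [NormedAddCommGroup X] [NormedSpace ℝ X] : Prop :=
  ∃ lam : ℝ, 1 ≤ lam ∧ ∀ C : Set X, IsCompact C → ∀ ε : ℝ, 0 < ε → ∃ T : X →L[ℝ] X,
    FiniteDimensional ℝ (LinearMap.range (T : X →ₗ[ℝ] X)) ∧ ‖T‖ ≤ lam ∧ ∀ u ∈ C, ‖T u - u‖ < ε

end Vale.Agent.P090
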