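import Vale.Agent.P090.Defs

namespace Vale.Agent.P090

/-- A weighted graph with a base point joined to every vertex. -/
structure Net (P : Type) where
  o : P
  E : P → P → ℝ → Prop
  one_le : ∀ p q l, E p q l → 1 ≤ l
  base : ∀ p, ∃ l, E p o l

variable {P : Type} (N : Net P)

/-- Functions that are `K`-Lipschitz along the edges. -/
def Net.ok (K : ℝ) (f : P → ℝ) : Prop := ∀ p q l, N.E p q l → |f p - f q| ≤ K * l

/-- The path distance, in dual form. -/
noncomputable def Net.d (p q : P) : ℝ := ⨆ f : {f // N.ok 1 f}, |f.1 p - f.1 q|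

instance : Nonempty {f // N.ok 1 f} :=
  ⟨⟨fun _ => 0, fun p q l h => by have := N.one_le p q l h; simp; linarith⟩⟩

theorem Net.le_d {f : P → ℝ} (hf : N.ok 1 f) (p q : P) : |f p - f q| ≤ N.d p q := by
  obtain ⟨l, hl⟩ := N.base p
  obtain ⟨l', hl'⟩ := N.base q
  refine le_ciSup (f := fun f : {f // N.ok 1 f} => |f.1 p - f.1 q|) ⟨l + l', ?_⟩ ⟨f, hf⟩
  rintro _ ⟨g, rfl⟩
  have h1 := g.2 _ _ _ hl
  have h2 := g.2 _ _ _ hl'
  have h3 := abs_sub_le (g.1 p) (g.1 N.o) (g.1 q)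
  rw [abs_sub_comm (g.1 N.o)] at h3
  linarith

theorem Net.d_le {p q : P} {l : ℝ} (h : N.E p q l) : N.d p q ≤ l :=
  ciSup_le fun f => by simpa using f.2 _ _ _ h

theorem Net.one_le_d {p q : P} (h : p ≠ q) : 1 ≤ N.d p q := by
  classical
  have := N.le_d (f := fun x => if x = p then 1 else 0) (fun a b l hl => ?_) p q
  · simpa [h.symm] using this
  · have := N.one_le a b l hl
    beta_reduce
    split_ifs <;> simp <;> linarith

theorem Net.le_mul_d {K : ℝ} (hK : 0 < K) {f : P → ℝ} (hf : N.ok K f) (p q : P) :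
    |f p - f q| ≤ K * N.d p q := by
  have := N.le_d (f := fun x => f x / K) (fun a b l hl => ?_) p q
  · rwa [← sub_div, abs_div, abs_of_pos hK, div_le_iff₀' hK] at this
  · rw [← sub_div, abs_div, abs_of_pos hK, div_le_iff₀' hK, one_mul]
    exact hf a b l hl

/-- The vertices with the path metric. -/
def Net.Sp (_ : Net P) : Type := P

noncomputable instance : MetricSpace N.Sp where
  dist p q := N.d p q
  dist_self p := by simp [Net.d]
  dist_comm p q := by simp only [Net.d, abs_sub_comm]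
  dist_triangle p q r := ciSup_le fun f =>
    (abs_sub_le _ (f.1 q) _).trans (add_le_add (N.le_d f.2 p q) (N.le_d f.2 q r))
  eq_of_dist_eq_zero := fun {p q} h => by
    by_contra hne
    have := N.one_le_d hne
    change N.d p q = 0 at h
    linarith

theorem vanish {M : Type} [MetricSpace M] (o : M) {K : Set (FreeSpace o)} (hK : IsCompact K) :
    ∃ B : Finset M, ∀ ξ ∈ K, ∀ f : Lip0 o, (∀ b ∈ B, f.fn b = 0) → |ξ.1 f| ≤ ‖f‖ := by
  classical
  let U : Finset M → Set (FreeSpace o) := fun B => {ξ | ∃ ξ' : StrongDual ℝ (Lip0 o),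
    (∀ f : Lip0 o, (∀ b ∈ B, f.fn b = 0) → ξ' f = 0) ∧ ‖ξ.1 - ξ'‖ < 1}
  have hU : ∀ B, IsOpen (U B) := by
    intro B
    have : U B = ⋃ ξ' : {ξ' : StrongDual ℝ (Lip0 o) //
        ∀ f : Lip0 o, (∀ b ∈ B, f.fn b = 0) → ξ' f = 0}, {ξ : FreeSpace o | ‖ξ.1 - ξ'.1‖ < 1} := by
      ext ξ
      simp [U]
    rw [this]
    exact isOpen_iUnion fun ξ' => isOpen_lt (by fun_prop) continuous_const
  have hmono : Monotone U := by
    rintro B B' h ξ ⟨ξ', h1, h2⟩
    exact ⟨ξ', fun f hf => h1 f fun b hb => hf b (h hb), h2⟩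
  have hcov : K ⊆ ⋃ B, U B := by
    intro ξ _
    obtain ⟨ξ', h1, h2⟩ := Metric.mem_closure_iff.1 ξ.2 1 one_pos
    obtain ⟨c, rfl⟩ := Finsupp.mem_span_range_iff_exists_finsupp.1 h1
    refine Set.mem_iUnion.2 ⟨c.support, _, fun f hf => ?_, by rwa [← dist_eq_norm]⟩
    rw [Finsupp.sum, sum_apply]
    refine Finset.sum_eq_zero fun b hb => ?_
    change c b * f.fn b = 0
    rw [hf b hb, mul_zero]
  obtain ⟨B, hB⟩ := hK.elim_directed_cover U hU hcov hmono.directed_le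
  refine ⟨B, fun ξ hξ f hf => ?_⟩
  obtain ⟨ξ', h1, h2⟩ := hB hξ
  have h3 := (ξ.1 - ξ').le_opNorm f
  rw [sub_apply, h1 f hf, sub_zero] at h3
  exact h3.trans (mul_le_of_le_one_left (norm_nonneg _) h2.le)

theorem op_aux {X : Type} [NormedAddCommGroup X] [NormedSpace ℝ X] (T : X →L[ℝ] X) {lam l : ℝ}
    (hn : ‖T‖ ≤ lam) {a b : X} (h : ‖a - b‖ ≤ l) :
    ‖T a - T b‖ ≤ lam * l ∧ (b = 0 → (⟨T a, a, rfl⟩ : LinearMap.range (T : X →ₗ[ℝ] X)) ∈
      Metric.closedBall 0 (lam * l)) := by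
  have h1 : ‖T a - T b‖ ≤ lam * l := by
    rw [← map_sub]
    exact (T.le_opNorm _).trans (mul_le_mul hn h (norm_nonneg _) ((norm_nonneg _).trans hn))
  refine ⟨h1, fun hb => ?_⟩
  rw [hb, map_zero, sub_zero] at h1
  simpa using h1

/-- The base point of the metric space. -/
def Net.pt : N.Sp := N.o

theorem Net.functionals (h : HasBAP (FreeSpace N.pt)) : ∃ lam : ℝ, 1 ≤ lam ∧
    ∀ (A : Set P) (D : ℝ), A.Finite → ∃ (Φ : P → ((P → ℝ) →ₗ[ℝ] ℝ)) (B : Finset P),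
      ∀ (K : ℝ) (f : P → ℝ), 0 < K → f N.o = 0 → N.ok K f →
        (∀ p q l, N.E p q l → |Φ p f - Φ q f| ≤ lam * l * K) ∧ (∀ t ∈ A, |Φ t f - f t| ≤ K) ∧
        ((∀ b ∈ B, f b = 0) → ∀ p, N.E p N.o D → |Φ p f| ≤ K) := by
  obtain ⟨lam, h1, h⟩ := h
  refine ⟨lam, h1, fun A D hA => ?_⟩
  let dl : P → FreeSpace N.pt := fun p => ⟨delta N.pt p,
    Submodule.le_topologicalClosure _ (Submodule.subset_span ⟨p, rfl⟩)⟩
  have hdl : ∀ p q, ‖dl p - dl q‖ ≤ N.d p q := by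
    intro p q
    refine ContinuousLinearMap.opNorm_le_bound _ (dist_nonneg (α := N.Sp) (x := p) (y := q))
      fun f => ?_
    rw [mul_comm]
    exact f.le_lipConst p q
  have hdl0 : dl N.o = 0 := Subtype.ext (ContinuousLinearMap.ext fun f => f.fn_base)
  obtain ⟨T, hT, hn, hTA⟩ := h (dl '' A) (hA.image _).isCompact 1 one_pos
  have hc : IsCompact (Subtype.val '' Metric.closedBall
      (0 : LinearMap.range (T : FreeSpace N.pt →ₗ[ℝ] FreeSpace N.pt))
      (lam * D)) := by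
    have := FiniteDimensional.proper_real
      (LinearMap.range (T : FreeSpace N.pt →ₗ[ℝ] FreeSpace N.pt))
    exact (isCompact_closedBall _ _).image continuous_subtype_val
  obtain ⟨B, hB⟩ := vanish N.pt hc
  have hex : ∀ p : P, ∃ Φ : (P → ℝ) →ₗ[ℝ] ℝ, ∀ F : Lip0 N.pt, Φ F.fn = (T (dl p)).1 F := by
    intro p
    obtain ⟨Φ, hΦ⟩ := LinearMap.exists_extend (p := lipSub N.pt)
      ((T (dl p)).1 : Lip0 N.pt →ₗ[ℝ] ℝ)
    exact ⟨Φ, fun F => LinearMap.congr_fun hΦ F⟩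
  choose Φ hΦ using hex
  refine ⟨Φ, B, fun K f hK h0 hf => ?_⟩
  let F : Lip0 N.pt := (⟨f, h0, K, N.le_mul_d hK hf⟩ : lipSub N.pt)
  have hF : ‖F‖ ≤ K := F.lipConst_le hK.le (N.le_mul_d hK hf)
  have e : ∀ p, Φ p f = (T (dl p)).1 F := fun p => hΦ p F
  have hT' : ∀ p q l, N.E p q l → ‖T (dl p) - T (dl q)‖ ≤ lam * l := fun p q l hl =>
    (op_aux T hn ((hdl p q).trans (N.d_le hl))).1
  refine ⟨fun p q l hl => ?_, fun t ht => ?_, fun hb p hp => ?_⟩
  · rw [e, e]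
    have := N.one_le p q l hl
    exact ((T (dl p) - T (dl q)).1.le_opNorm F).trans
      (mul_le_mul (hT' p q l hl) hF (norm_nonneg _) (by positivity))
  · rw [e]
    refine ((T (dl t) - dl t).1.le_opNorm F).trans ?_
    exact (mul_le_of_le_one_left (norm_nonneg _) (hTA _ ⟨t, ht, rfl⟩).le).trans hF
  · rw [e]
    exact (hB _ ⟨⟨T (dl p), dl p, rfl⟩, (op_aux T hn ((hdl p N.o).trans (N.d_le hp))).2 hdl0,
      rfl⟩ F hb).trans hF

end Vale.Agent.P090
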