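import Vale.Agent.P090.Part
import Vale.Agent.P090.Net

namespace Vale.Agent.P090

/-- The girth of part `j`. -/
def rho (j : ℕ) : ℕ := 40000 * (j + 1) ^ 2

/-- The points of the space. -/
abbrev Pt : Type := Option (Σ j : ℕ, Part (rho j))

/-- The inclusion of a part. -/
def emb (j : ℕ) (y : Part (rho j)) : Pt := some ⟨j, y⟩

theorem emb_inj (j : ℕ) : Function.Injective (emb j) := fun _ _ h =>
  sigma_mk_injective (β := fun j => Part (rho j)) (Option.some.inj h)

/-- The weighted edges. -/
inductive Edge : Pt → Pt → ℝ → Prop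
  | unit (j b z i) : Edge (emb j (some b, z)) (emb j (some (nb i b), gen _ (i, col b i) * z)) 1
  | anchor (j b z) : Edge (emb j (some b, z)) (emb j (none, z)) (200 * (j + 1))
  | base (j y) : Edge (emb j y) none (rho j)
  | loop : Edge none none 1

/-- The weighted graph. -/
def net : Net Pt where
  o := none
  E := Edge
  one_le p q l h := by
    cases h with
    | unit => exact le_rfl
    | anchor j => nlinarith [(Nat.cast_nonneg j : (0 : ℝ) ≤ j)]
    | base j =>
      have : 1 ≤ rho j := Nat.succ_le_of_lt (by unfold rho; positivity)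
      exact_mod_cast this
    | loop => exact le_rfl
  base p := by
    rcases p with _ | ⟨j, y⟩
    · exact ⟨_, Edge.loop⟩
    · exact ⟨_, Edge.base j y⟩

theorem not_bap : ¬ HasBAP (FreeSpace net.pt) := by
  classical
  intro h
  obtain ⟨lam, h1, h⟩ := net.functionals h
  obtain ⟨j, hj⟩ := exists_nat_ge lam
  have hj0 : (0 : ℝ) ≤ j := Nat.cast_nonneg j
  obtain ⟨Φ, B, H⟩ := h (Set.range fun z => emb j (none, z)) (rho j) (Set.finite_range _)
  let E : (Part (rho j) → ℝ) →ₗ[ℝ] (Pt → ℝ) := Function.ExtendByZero.linearMap ℝ (emb j)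
  have e1 : ∀ φ y, E φ (emb j y) = φ y := fun φ y => (emb_inj j).extend_apply φ 0 y
  have e2 : ∀ φ p, (¬ ∃ y, emb j y = p) → E φ p = 0 := fun φ p hp =>
    Function.extend_apply' φ (0 : Pt → ℝ) p hp
  have e3 : ∀ φ, E φ none = 0 := fun φ => e2 φ _ fun ⟨_, h⟩ => by cases h
  have e4 : ∀ φ j' y, j' ≠ j → E φ (emb j' y) = 0 := fun φ j' y hne => e2 φ _ fun ⟨_, h⟩ =>
    hne (congrArg Sigma.fst (Option.some.inj h)).symm
  refine part_contra (ρ := rho j) (L := 200 * (j + 1)) h1 (by linarith) ?_
    (fun u => Φ (emb j u) ∘ₗ E) (B.preimage (emb j) (emb_inj j).injOn) fun K φ hK hφ => ?_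
  · unfold rho
    push_cast
    nlinarith
  have hok : net.ok K (E φ) := by
    intro p q l hl
    have hl1 := net.one_le p q l hl
    have h0 : |(0 : ℝ) - 0| ≤ K * l := by
      rw [sub_zero, abs_zero]
      positivity
    cases hl with
    | unit j' b z i =>
      rcases eq_or_ne j' j with rfl | hne
      · rw [e1, e1, mul_one]
        exact hφ.1 b z i
      · rwa [e4 _ _ _ hne, e4 _ _ _ hne]
    | anchor j' b z =>
      rcases eq_or_ne j' j with rfl | hne
      · rw [e1, e1]
        exact hφ.2.1 b z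
      · rwa [e4 _ _ _ hne, e4 _ _ _ hne]
    | base j' y =>
      rcases eq_or_ne j' j with rfl | hne
      · rw [e1, e3, sub_zero]
        exact hφ.2.2 y
      · rwa [e4 _ _ _ hne, e3]
    | loop => rwa [e3]
  obtain ⟨a1, a2, a3⟩ := H K (E φ) hK (e3 φ) hok
  refine ⟨fun b z i => ?_, fun b z => ?_, fun hb u => a3 (fun p hp => ?_) _ (Edge.base j u)⟩
  · simpa using a1 _ _ _ (Edge.unit j b z i)
  · have b1 := a1 _ _ _ (Edge.anchor j b z)
    have b2 := a2 _ ⟨z, rfl⟩
    rw [e1] at b2
    exact (abs_sub_le _ _ _).trans (add_le_add b1 b2)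
  · by_cases hp' : ∃ y, emb j y = p
    · obtain ⟨y, rfl⟩ := hp'
      rw [e1]
      exact hb y (Finset.mem_preimage.2 hp)
    · exact e2 φ p hp'

end Vale.Agent.P090
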