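import Vale.Agent.P090.Tree

open Finset

namespace Vale.Agent.P090

/-- The points of one part of the space. -/
abbrev Part (ρ : ℕ) : Type := Option Core × Grp Lab ρ

/-- Admissible test functions on one part. -/
def adm {ρ : ℕ} (L K : ℝ) (φ : Part ρ → ℝ) : Prop :=
  (∀ b z i, |φ (some b, z) - φ (some (nb i b), gen ρ (i, col b i) * z)| ≤ K) ∧
    (∀ b z, |φ (some b, z) - φ (none, z)| ≤ K * L) ∧ ∀ y, |φ y| ≤ K * ρ

/-- The cut-off function. -/
noncomputable def chi {ρ : ℕ} (q : Grp Lab ρ) : ℝ := kap ρ q / ρ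

/-- The test function attached to a function on the atoms. -/
noncomputable def test {ρ : ℕ} (x : Grp Lab ρ) : (Tr → ℝ) →ₗ[ℝ] (Part ρ → ℝ) where
  toFun θ y := chi (x * y.2⁻¹) * θ (tp (x * y.2⁻¹) (root y.1))
  map_add' _ _ := funext fun _ => mul_add _ _ _
  map_smul' _ _ := funext fun _ => mul_left_comm _ _ _

variable {ρ : ℕ}

theorem test_apply (x : Grp Lab ρ) (θ : Tr → ℝ) (y : Part ρ) :
    test x θ y = chi (x * y.2⁻¹) * θ (tp (x * y.2⁻¹) (root y.1)) := rfl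

theorem chi_nonneg (q : Grp Lab ρ) : 0 ≤ chi q := by unfold chi; positivity

theorem chi_le (q : Grp Lab ρ) : chi q ≤ 1 :=
  div_le_one_of_le₀ (by exact_mod_cast kap_le ρ q) (Nat.cast_nonneg _)

theorem abs_chi_mul (q : Grp Lab ρ) {a : ℝ} (ha : |a| ≤ 1) : |chi q * a| ≤ 1 := by
  rw [abs_mul, abs_of_nonneg (chi_nonneg q)]
  exact mul_le_one₀ (chi_le q) (abs_nonneg _) ha

theorem chi_diff {q q' : Grp Lab ρ} (h1 : kap ρ q ≤ kap ρ q' + 1) (h2 : kap ρ q' ≤ kap ρ q + 1)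
    {a a' : ℝ} (_ha : |a| ≤ 1) (ha' : |a'| ≤ 1) (h : 0 < kap ρ q → a = a') :
    |chi q * a - chi q' * a'| ≤ 1 / ρ := by
  have e1 : (kap ρ q : ℝ) ≤ kap ρ q' + 1 := by exact_mod_cast h1
  have e2 : (kap ρ q' : ℝ) ≤ kap ρ q + 1 := by exact_mod_cast h2
  have key : |chi q - chi q'| ≤ 1 / ρ := by
    unfold chi
    rw [← sub_div, abs_div, Nat.abs_cast]
    exact div_le_div_of_nonneg_right (abs_le.2 ⟨by linarith, by linarith⟩) (Nat.cast_nonneg _)
  have e : chi q * a - chi q' * a' = (chi q - chi q') * a' := by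
    rcases Nat.eq_zero_or_pos (kap ρ q) with h0 | h0
    · have : chi q = 0 := by simp [chi, h0]
      rw [this]
      ring
    · rw [h h0]
      ring
  rw [e, abs_mul]
  exact (mul_le_of_le_one_right (abs_nonneg _) ha').trans key

theorem test_unit (x : Grp Lab ρ) {θ : Tr → ℝ} (hθ : ∀ β, |θ β| ≤ 1) (b : Core) (z : Grp Lab ρ)
    (i : Fin 3) :
    |test x θ (some b, z) - test x θ (some (nb i b), gen ρ (i, col b i) * z)| ≤ 1 / ρ := by
  have e : x * (gen ρ (i, col b i) * z)⁻¹ = x * z⁻¹ * gen ρ (i, col b i) := by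
    rw [mul_inv_rev, inv_eq_of_mul_eq_one_right (gen_mul_self ρ _), mul_assoc]
  simp only [test_apply, e]
  refine chi_diff (kap_right _ _ _) ?_ (hθ _) (hθ _) fun h => ?_
  · have := kap_right ρ (i, col b i) (x * z⁻¹ * gen ρ (i, col b i))
    rwa [mul_assoc _ (gen ρ _), gen_mul_self, mul_one] at this
  · rw [tp_right h, ← trGen_root, Equiv.Perm.mul_apply, trGen_gen]

theorem adm_test {L : ℝ} (hL : 0 < L) (hρ : L ≤ ρ) (x : Grp Lab ρ) {θ : Tr → ℝ}
    (hθ : ∀ β, |θ β| ≤ 1) : adm L (2 / L) (test x θ) := by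
  have h1 : ∀ y, |test x θ y| ≤ 1 := fun y => abs_chi_mul _ (hθ _)
  refine ⟨fun b z i => (test_unit x hθ b z i).trans ?_, fun b z => ?_, fun y => (h1 y).trans ?_⟩
  · rw [div_le_div_iff₀ (by linarith) hL]
    linarith
  · rw [div_mul_cancel₀ _ hL.ne']
    have := abs_sub (test x θ (some b, z)) (test x θ (none, z))
    linarith [h1 (some b, z), h1 (none, z)]
  · rw [div_mul_eq_mul_div, le_div_iff₀ hL]
    linarith

theorem adm_one {L : ℝ} (hL : 0 < L) (hρ : L ≤ ρ) (x : Grp Lab ρ) :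
    adm L (1 / ρ) (test x fun _ => 1) := by
  have h0 : (0 : ℝ) < ρ := by linarith
  refine ⟨test_unit x fun _ => by simp, fun b z => ?_, fun y => ?_⟩
  · simp only [test_apply, sub_self, abs_zero]
    positivity
  · rw [div_mul_cancel₀ _ h0.ne']
    exact abs_chi_mul _ (by simp)

theorem test_diff (x : Grp Lab ρ) {θ : Tr → ℝ} (hθ : ∀ β, |θ β| ≤ 1) (s : Lab) (y : Part ρ) :
    |(test x θ - test (gen ρ s * x) (θ ∘ trGen s)) y| ≤ 1 / ρ := by
  simp only [Pi.sub_apply, test_apply, mul_assoc (gen ρ s), Function.comp]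
  refine chi_diff (kap_left _ _ _) ?_ (hθ _) (hθ _) fun h => ?_
  · have := kap_left ρ s (gen ρ s * (x * y.2⁻¹))
    rwa [gen_gen] at this
  · rw [tp_left h, Equiv.Perm.mul_apply, trGen_gen]

theorem adm_small {L : ℝ} (hL : 1 ≤ L) (hρ : L ≤ ρ) {φ : Part ρ → ℝ} (h : ∀ y, |φ y| ≤ 1 / ρ) :
    adm L (2 / ρ) φ := by
  have h0 : (0 : ℝ) < ρ := by linarith
  have h1 : ∀ y y', |φ y - φ y'| ≤ 2 / ρ := fun y y' => by
    have := abs_sub (φ y) (φ y')
    have e : (2 : ℝ) / ρ = 1 / ρ + 1 / ρ := by ring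
    linarith [h y, h y']
  refine ⟨fun _ _ _ => h1 _ _, fun _ _ => (h1 _ _).trans (le_mul_of_one_le_right (by positivity) hL),
    fun y => (h y).trans ?_⟩
  rw [div_mul_cancel₀ _ h0.ne', div_le_iff₀ h0]
  linarith

open Classical in
theorem abs_sum (Λ Λ' : (Tr → ℝ) →ₗ[ℝ] ℝ) (F : Finset Tr) (e : Tr → Tr) (he : ∀ y, e (e y) = y) :
    ∃ θ : Tr → ℝ, (∀ β, |θ β| ≤ 1) ∧ (∀ β ∉ F, θ β = 0) ∧
      ∑ α ∈ F, |Λ (Pi.single α 1) - Λ' (Pi.single (e α) 1)| = Λ θ - Λ' (θ ∘ e) := by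
  let a : Tr → ℝ := fun α => if 0 ≤ Λ (Pi.single α 1) - Λ' (Pi.single (e α) 1) then 1 else -1
  have h1 : ∀ β, (∑ α ∈ F, a α • (Pi.single α 1 : Tr → ℝ)) β = if β ∈ F then a β else 0 := by
    intro β
    simp [Finset.sum_apply, Pi.single_apply]
  refine ⟨∑ α ∈ F, a α • Pi.single α 1, fun β => ?_, fun β hβ => by rw [h1, if_neg hβ], ?_⟩
  · rw [h1]
    simp only [a]
    split_ifs <;> simp
  · have h2 : (∑ α ∈ F, a α • (Pi.single α 1 : Tr → ℝ)) ∘ e =
        ∑ α ∈ F, a α • (Pi.single (e α) 1 : Tr → ℝ) := by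
      funext β
      simp only [Function.comp, Finset.sum_apply, Pi.smul_apply, Pi.single_apply]
      refine sum_congr rfl fun α _ => ?_
      have : e β = α ↔ β = e α := ⟨fun h => by rw [← h, he], fun h => by rw [h, he]⟩
      simp only [this]
    rw [h2, map_sum, map_sum, ← sum_sub_distrib]
    refine sum_congr rfl fun α _ => ?_
    rw [map_smul, map_smul, smul_eq_mul, smul_eq_mul, ← mul_sub]
    simp only [a]
    split_ifs with h
    · rw [abs_of_nonneg h, one_mul]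
    · rw [abs_of_neg (not_le.1 h), neg_one_mul]

theorem exists_atoms (B : Finset (Part ρ)) : ∃ F : Finset Tr, (∀ α ∈ F, α.2.1.length ≤ ρ) ∧
    ∀ (x : Grp Lab ρ) (θ : Tr → ℝ), (∀ β ∈ F, θ β = 0) → ∀ b ∈ B, test x θ b = 0 := by
  have hfin : ((fun p : Part ρ × List Lab => (p.2.map trGen).prod (root p.1.1)) ''
      ((B : Set (Part ρ)) ×ˢ {w : List Lab | w.length ≤ ρ})).Finite :=
    (B.finite_toSet.prod (List.finite_length_le Lab ρ)).image _
  refine ⟨hfin.toFinset, fun α hα => ?_, fun x θ hθ b hb => ?_⟩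
  · obtain ⟨⟨b, w⟩, ⟨-, hw⟩, rfl⟩ := hfin.mem_toFinset.1 hα
    have := depth_prod w (root b.1)
    simp only [root, List.length_nil, zero_add] at this
    exact this.trans hw
  · rw [test_apply]
    rcases Nat.eq_zero_or_pos (kap ρ (x * b.2⁻¹)) with h0 | h0
    · simp [chi, h0]
    · obtain ⟨w, h1, h2⟩ := kap_pos h0
      rw [← h1, tp_prod w (by omega), hθ _ (hfin.mem_toFinset.2
        ⟨(b, w), ⟨hb, by simp only [Set.mem_ofPred_eq]; omega⟩, rfl⟩), mul_zero]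

open Classical in
theorem mass_contra (F : Finset Tr) (hF : ∀ α ∈ F, α.2.1.length ≤ ρ) {mx : ℝ} (hmx : 0 ≤ mx)
    (f : Core → Grp Lab ρ → Tr → ℝ) (f0 : ∀ v x α, 0 ≤ f v x α)
    (hlo : ∀ v x, 1 / 2 ≤ ∑ α ∈ F, f v x α) (hhi : ∀ v x, ∑ α ∈ F, f v x α ≤ mx)
    (hed : ∀ v x i, ∑ α ∈ F, f v x α - 1 / 24 ≤ ∑ α ∈ F, if trGen (i, col v i) α ∈ F then
      min (f v x α) (f (nb i v) (gen ρ (i, col v i) * x) (trGen (i, col v i) α)) else 0) :
    False := by
  have : Fintype (Grp Lab ρ) := Fintype.ofFinite _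
  let Cs : Finset Core := Finset.eraseNone (F.image Prod.fst)
  obtain ⟨g, hg⟩ := exists_pow_lt_of_lt_one
    (show 0 < 1 / ((Cs.card + 1) * (8 * mx + 1) : ℝ) by positivity) (show (3 / 4 : ℝ) < 1 by norm_num)
  let nv : Fin 3 → Vtx g → Vtx g := fun i v => (gen g i * v.1, v.2)
  have nv2 : ∀ i v, nv i (nv i v) = v := fun i v => Prod.ext (gen_gen g i v.1) rfl
  let bad := univ.filter fun v : Vtx g => Bad Cs g ⟨g, v⟩
  let good := univ.filter fun v : Vtx g => ¬ Bad Cs g ⟨g, v⟩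
  let J : Fin 3 → Vtx g × Grp Lab ρ × Tr → Vtx g × Grp Lab ρ × Tr := fun i z =>
    (nv i z.1, gen ρ (i, col ⟨g, z.1⟩ i) * z.2.1, trGen (i, col ⟨g, z.1⟩ i) z.2.2)
  have key := forest J (fun i z => ?_) (fun z => f ⟨g, z.1⟩ z.2.1 z.2.2) (fun z => f0 _ _ _)
    (good ×ˢ univ ×ˢ F) fun z τ h1 h2 => ?_
  rotate_left
  · have e : col ⟨g, nv i z.1⟩ i = col ⟨g, z.1⟩ i := col_nb i ⟨g, z.1⟩
    simp only [J, e, nv2, gen_gen, trGen_gen]
  · by_contra hcon
    push Not at hcon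
    have := bad_of_walk (ρ := ρ) (g := g) (Cs := Cs) (fun j => ⟨g, (z j).1⟩) (fun j => (z j).2.2) τ h1
      (fun j => by simp only [h2]; rfl) (fun j => by simp only [h2]; rfl)
      (fun j => hF _ (mem_product.1 (mem_product.1 (hcon j)).2).2) fun j c hc =>
        Finset.mem_eraseNone.2 (mem_image.2 ⟨_, (mem_product.1 (mem_product.1 (hcon j)).2).2, hc⟩)
    exact (mem_filter.1 (mem_product.1 (hcon ρ)).1).2 this
  rw [sum_product, sum_product] at key
  simp only [sum_product] at key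
  have k1 : ∀ v ∈ good, ∀ x : Grp Lab ρ, 3 * (∑ α ∈ F, f ⟨g, v⟩ x α) - 1 / 8 -
      ∑ i, (if nv i v ∈ bad then mx else 0) ≤ ∑ α ∈ F, ∑ i, if J i (v, x, α) ∈ good ×ˢ univ ×ˢ F
        then min (f ⟨g, v⟩ x α) (f ⟨g, (J i (v, x, α)).1⟩ (J i (v, x, α)).2.1 (J i (v, x, α)).2.2)
        else 0 := by
    intro v _ x
    rw [sum_comm]
    have e : 3 * (∑ α ∈ F, f ⟨g, v⟩ x α) - 1 / 8 - ∑ i, (if nv i v ∈ bad then mx else 0) =
        ∑ i, (∑ α ∈ F, f ⟨g, v⟩ x α - 1 / 24 - if nv i v ∈ bad then mx else 0) := by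
      rw [sum_sub_distrib, sum_const, card_univ, Fintype.card_fin, nsmul_eq_mul]
      push_cast
      ring
    rw [e]
    refine sum_le_sum fun i _ => ?_
    by_cases hb : nv i v ∈ bad
    · rw [if_pos hb]
      refine le_trans (by linarith [hhi ⟨g, v⟩ x]) (sum_nonneg fun α _ => ?_)
      split_ifs
      · exact le_min (f0 _ _ _) (f0 _ _ _)
      · exact le_rfl
    · rw [if_neg hb, sub_zero]
      have hgd : nv i v ∈ good := by simpa [good, bad] using hb
      refine (hed ⟨g, v⟩ x i).trans (le_of_eq (sum_congr rfl fun α _ => ?_))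
      simp only [J, mem_product, hgd, mem_univ, true_and]
      rfl
  have k2 := sum_le_sum fun v hv => sum_le_sum fun x (_ : x ∈ univ) => k1 v hv x
  have k3 := k2.trans key
  have k4 : ∀ i, ∑ v ∈ good, (if nv i v ∈ bad then mx else 0) ≤ bad.card * mx := by
    intro i
    rw [← sum_filter, sum_const, nsmul_eq_mul]
    refine mul_le_mul_of_nonneg_right ?_ hmx
    exact_mod_cast card_le_card_of_injOn (nv i) (fun v hv => (mem_filter.1 hv).2)
      fun a _ b _ h => by rw [← nv2 i a, h, nv2]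
  have k5 : ∑ v ∈ good, ∑ i, (if nv i v ∈ bad then mx else 0) ≤ 3 * (bad.card * mx) := by
    rw [sum_comm]
    simpa using sum_le_card_nsmul _ _ _ fun i (_ : i ∈ univ) => k4 i
  have k6 : (good.card : ℝ) * (Fintype.card (Grp Lab ρ) * (1 / 2)) ≤
      ∑ v ∈ good, ∑ x, ∑ α ∈ F, f ⟨g, v⟩ x α := by
    have := card_nsmul_le_sum good (fun v => ∑ x, ∑ α ∈ F, f ⟨g, v⟩ x α)
      (Fintype.card (Grp Lab ρ) * (1 / 2)) fun v _ => by
        simpa using card_nsmul_le_sum univ _ _ fun x _ => hlo ⟨g, v⟩ x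
    rwa [nsmul_eq_mul] at this
  simp only [sum_sub_distrib, ← mul_sum, sum_const, card_univ, nsmul_eq_mul] at k3
  have hH : (0 : ℝ) < Fintype.card (Grp Lab ρ) := by exact_mod_cast Fintype.card_pos
  have k7 : (good.card : ℝ) ≤ 8 * mx * bad.card := by
    have := mul_le_mul_of_nonneg_left k5 hH.le
    refine le_of_mul_le_mul_left ?_ hH
    nlinarith
  have k8 : (bad.card : ℝ) + good.card = Fintype.card (Vtx g) := by
    exact_mod_cast card_filter_add_card_filter_not (s := univ) fun v : Vtx g => Bad Cs g ⟨g, v⟩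
  have k9 : (bad.card : ℝ) * 4 ^ g ≤ Cs.card * 3 ^ g * Fintype.card (Vtx g) := by
    exact_mod_cast count_bad Cs g
  have hV : (0 : ℝ) < Fintype.card (Vtx g) := by exact_mod_cast Fintype.card_pos
  rw [div_pow, div_lt_div_iff₀ (by positivity) (by positivity), one_mul] at hg
  have k10 : (Fintype.card (Vtx g) : ℝ) * 4 ^ g ≤
      (8 * mx + 1) * (Cs.card * 3 ^ g * Fintype.card (Vtx g)) := by
    calc (Fintype.card (Vtx g) : ℝ) * 4 ^ g ≤ ((8 * mx + 1) * bad.card) * 4 ^ g := by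
          gcongr
          linarith
      _ = (8 * mx + 1) * (bad.card * 4 ^ g) := by ring
      _ ≤ _ := by gcongr
  have k11 := mul_lt_mul_of_pos_left hg hV
  have k12 : (0 : ℝ) ≤ Fintype.card (Vtx g) * (3 ^ g * (8 * mx + 1)) := by positivity
  nlinarith

theorem part_contra {L lam : ℝ} (h1 : 1 ≤ lam) (hL : 200 * lam ≤ L) (hρ : 200 * (lam * L) ≤ ρ)
    (Ψ : Part ρ → ((Part ρ → ℝ) →ₗ[ℝ] ℝ)) (B : Finset (Part ρ))
    (H : ∀ (K : ℝ) (φ : Part ρ → ℝ), 0 < K → adm L K φ →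
      (∀ b z i, |Ψ (some b, z) φ - Ψ (some (nb i b), gen ρ (i, col b i) * z) φ| ≤ lam * K) ∧
      (∀ b z, |Ψ (some b, z) φ - φ (none, z)| ≤ lam * L * K + K) ∧
      ((∀ b ∈ B, φ b = 0) → ∀ u, |Ψ u φ| ≤ K)) : False := by
  classical
  have hL0 : 0 < L := by linarith
  have hL1 : 200 * L ≤ ρ := by nlinarith
  have hρ0 : (0 : ℝ) < ρ := by linarith
  have hLρ : L ≤ ρ := by linarith
  have n1 : lam * (2 / L) ≤ 1 / 100 := by
    rw [mul_div_assoc', div_le_iff₀ hL0]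
    linarith
  have n2 : 2 / L ≤ 1 / 100 := by
    rw [div_le_iff₀ hL0]
    linarith
  have n3 : lam * L * (1 / ρ) ≤ 1 / 200 := by
    rw [mul_div_assoc', div_le_iff₀ hρ0]
    linarith
  have n4 : (1 : ℝ) / ρ ≤ 1 / 1000 := by
    rw [div_le_iff₀ hρ0]
    linarith
  have n5 : (2 : ℝ) / ρ = 2 * (1 / ρ) := by ring
  have n6 : lam * L * (2 / L) = 2 * lam := by field_simp
  obtain ⟨F, hF, hB⟩ := exists_atoms B
  let Λ : Core → Grp Lab ρ → ((Tr → ℝ) →ₗ[ℝ] ℝ) := fun v x => Ψ (some v, x) ∘ₗ test x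
  have hout : ∀ v x (θ : Tr → ℝ), (∀ β, |θ β| ≤ 1) → (∀ β ∈ F, θ β = 0) → |Λ v x θ| ≤ 2 / L :=
    fun v x θ h h0 => (H _ _ (by positivity) (adm_test hL0 hLρ x h)).2.2 (hB x θ h0) _
  refine mass_contra F hF (mx := 2 * lam + 2) (by linarith)
    (fun v x α => |Λ v x (Pi.single α 1)|) (fun _ _ _ => abs_nonneg _) (fun v x => ?_)
    (fun v x => ?_) fun v x i => ?_
  · have a1 := (H _ _ (by positivity) (adm_one hL0 hLρ x)).2.1 v x
    have a2 : test x (fun _ => 1) (none, x) = 1 := by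
      rw [test_apply, mul_inv_cancel, chi, kap_one, div_self hρ0.ne', mul_one]
    have a3 := hout v x (fun β => if β ∈ F then 0 else 1) (fun β => by split_ifs <;> simp)
      fun β hβ => if_pos hβ
    have a4 : (fun _ => 1 : Tr → ℝ) =
        ∑ α ∈ F, Pi.single α 1 + fun β => if β ∈ F then 0 else 1 := by
      funext β
      by_cases hβ : β ∈ F <;> simp [Finset.sum_apply, Pi.single_apply, hβ]
    have a5 : Λ v x (fun _ => 1) = ∑ α ∈ F, Λ v x (Pi.single α 1) +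
        Λ v x fun β => if β ∈ F then 0 else 1 := by rw [a4, map_add, map_sum]
    have a6 : ∑ α ∈ F, Λ v x (Pi.single α 1) ≤ ∑ α ∈ F, |Λ v x (Pi.single α 1)| :=
      sum_le_sum fun _ _ => le_abs_self _
    rw [a2] at a1
    change |Λ v x (fun _ => 1) - 1| ≤ _ at a1
    linarith [(abs_le.1 a1).1, (abs_le.1 a3).2]
  · obtain ⟨θ, b1, -, b2⟩ := abs_sum (Λ v x) 0 F id fun _ => rfl
    simp only [LinearMap.zero_apply, sub_zero] at b2
    have a1 := (H _ _ (by positivity) (adm_test hL0 hLρ x b1)).2.1 v x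
    have a2 : |test x θ (none, x)| ≤ 1 := abs_chi_mul _ (b1 _)
    change |Λ v x θ - _| ≤ _ at a1
    rw [b2]
    linarith [(abs_le.1 a1).2, (abs_le.1 a2).2]
  · set s : Lab := (i, col v i) with hs
    obtain ⟨θ, b1, -, b2⟩ := abs_sum (Λ v x) (Λ (nb i v) (gen ρ s * x)) F (trGen s) (trGen_gen s)
    obtain ⟨θ', c1, c2, c3⟩ := abs_sum 0 (Λ (nb i v) (gen ρ s * x))
      (F.filter fun α => trGen s α ∉ F) (trGen s) (trGen_gen s)
    simp only [LinearMap.zero_apply, zero_sub, abs_neg] at c3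
    have a1 := hout (nb i v) (gen ρ s * x) (θ' ∘ trGen s) (fun _ => c1 _) fun β hβ =>
      c2 _ fun h => (mem_filter.1 h).2 (by rwa [trGen_gen])
    have a2 := (H _ _ (by positivity) (adm_test hL0 hLρ x b1)).1 v x i
    have a3 := (H _ _ (by positivity)
      (adm_small (by linarith) hLρ (test_diff x b1 s))).2.1 (nb i v) (gen ρ s * x)
    have a4 := test_diff x b1 s (none, gen ρ s * x)
    rw [map_sub] at a3
    change |Λ v x θ - _| ≤ _ at a2
    change |_ - Λ (nb i v) (gen ρ s * x) (θ ∘ trGen s) - _| ≤ _ at a3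
    have a5 : ∑ α ∈ F, |Λ v x (Pi.single α 1)| -
        ∑ α ∈ F, |Λ v x (Pi.single α 1) - Λ (nb i v) (gen ρ s * x) (Pi.single (trGen s α) 1)| -
        ∑ α ∈ F with trGen s α ∉ F, |Λ (nb i v) (gen ρ s * x) (Pi.single (trGen s α) 1)| ≤
        ∑ α ∈ F, if trGen s α ∈ F then min |Λ v x (Pi.single α 1)|
          |Λ (nb i v) (gen ρ s * x) (Pi.single (trGen s α) 1)| else 0 := by
      rw [sum_filter, ← sum_sub_distrib, ← sum_sub_distrib]
      refine sum_le_sum fun α _ => ?_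
      have := abs_sub_abs_le_abs_sub (Λ v x (Pi.single α 1))
        (Λ (nb i v) (gen ρ s * x) (Pi.single (trGen s α) 1))
      by_cases h : trGen s α ∈ F
      · rw [if_pos h, if_neg (not_not.2 h), sub_zero]
        exact le_min (sub_le_self _ (abs_nonneg _)) (by linarith)
      · rw [if_neg h, if_pos h]
        linarith
    refine le_trans ?_ a5
    rw [b2, c3]
    rw [n5] at a3
    linarith [(abs_le.1 a1).1, (abs_le.1 a2).2, (abs_le.1 a3).2, (abs_le.1 a4).2]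

end Vale.Agent.P090
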