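import Vale.Agent.P090.Core

open List

namespace Vale.Agent.P090

/-- Edge labels: a type and a colour. -/
abbrev Lab : Type := Fin 3 × Fin 4

/-- The cores completed by trees. -/
abbrev Tr : Type := Option Core × {w : List Lab // w.IsChain (· ≠ ·)}

/-- The label `s` is present at the core vertex `b`. -/
def lab (b : Option Core) (s : Lab) : Prop := ∃ c, b = some c ∧ col c s.1 = s.2

theorem lab_map {b : Option Core} {s : Lab} (h : lab b s) : lab (b.map (nb s.1)) s := by
  obtain ⟨c, rfl, h⟩ := h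
  exact ⟨nb s.1 c, rfl, by rw [col_nb, h]⟩

open Classical in
/-- The action of a label on the completed cores. -/
noncomputable def trAct (s : Lab) (y : Tr) : Tr :=
  if lab y.1 s ∧ y.2.1 = [] then (y.1.map (nb s.1), y.2)
  else if lab y.1 s ∧ y.2.1 = [s] then y else (y.1, ⟨act s y.2.1, act_chain s y.2.2⟩)

theorem trAct_invol (s : Lab) : Function.Involutive (trAct s) := by
  rintro ⟨b, w, hw⟩
  by_cases h1 : lab b s ∧ w = []
  · have e : trAct s (b, ⟨w, hw⟩) = (b.map (nb s.1), ⟨w, hw⟩) := if_pos h1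
    rw [e, trAct, if_pos ⟨lab_map h1.1, h1.2⟩]
    obtain ⟨c, rfl, -⟩ := h1.1
    simp [nb_nb]
  by_cases h2 : lab b s ∧ w = [s]
  · have e : trAct s (b, ⟨w, hw⟩) = (b, ⟨w, hw⟩) := (if_neg h1).trans (if_pos h2)
    rw [e, e]
  have e : trAct s (b, ⟨w, hw⟩) = (b, ⟨act s w, act_chain s hw⟩) := (if_neg h1).trans (if_neg h2)
  rw [e, trAct, if_neg, if_neg]
  · exact Prod.ext rfl (Subtype.ext (act_act s hw))
  · rintro ⟨a1, a2⟩
    have := congrArg (act s) a2
    rw [act_act s hw] at this
    exact h1 ⟨a1, by simpa [act] using this⟩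
  · rintro ⟨a1, a2⟩
    have := congrArg (act s) a2
    rw [act_act s hw] at this
    exact h2 ⟨a1, by simpa [act] using this⟩

/-- The action of a label as a permutation. -/
noncomputable def trGen (s : Lab) : Equiv.Perm Tr := (trAct_invol s).toPerm _

theorem trGen_mul_self (s : Lab) : trGen s * trGen s = 1 :=
  Equiv.ext fun w => trAct_invol s w

theorem trGen_gen (s : Lab) (y : Tr) : trGen s (trGen s y) = y := trAct_invol s y

/-- A core vertex or the terminal, as a point of the completion. -/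
def root (b : Option Core) : Tr := (b, ⟨[], List.IsChain.nil⟩)

theorem trGen_root (b : Core) (i : Fin 3) :
    trGen (i, col b i) (root (some b)) = root (some (nb i b)) :=
  if_pos ⟨⟨b, rfl, rfl⟩, rfl⟩

theorem depth_gen (s : Lab) (y : Tr) : (trGen s y).2.1.length ≤ y.2.1.length + 1 := by
  change (trAct s y).2.1.length ≤ _
  unfold trAct
  split_ifs
  · exact Nat.le_succ _
  · exact Nat.le_succ _
  · exact act_length_le _ _

theorem depth_prod (w : List Lab) (y : Tr) :
    ((w.map trGen).prod y).2.1.length ≤ y.2.1.length + w.length := by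
  induction w with
  | nil => simp
  | cons s w ih =>
    have := depth_gen s ((w.map trGen).prod y)
    rw [map_cons, prod_cons, Equiv.Perm.mul_apply, length_cons]
    omega

/-- The transport attached to a group element. -/
noncomputable def tp {g : ℕ} (q : Grp Lab g) : Equiv.Perm Tr := ((wd q).map trGen).prod

theorem tp_prod {g : ℕ} (w : List Lab) (h : w.length ≤ g) :
    tp (w.map (gen g)).prod = (w.map trGen).prod := by
  rw [tp, wd_prod w h, prod_red trGen trGen_mul_self]

theorem tp_left {ρ : ℕ} {q : Grp Lab ρ} (h : 0 < kap ρ q) (s : Lab) :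
    tp (gen ρ s * q) = trGen s * tp q := by
  obtain ⟨w, rfl, hw⟩ := kap_pos h
  rw [tp_prod w (by omega)]
  exact tp_prod (s :: w) (by rw [length_cons]; omega)

theorem tp_right {ρ : ℕ} {q : Grp Lab ρ} (h : 0 < kap ρ q) (s : Lab) :
    tp (q * gen ρ s) = tp q * trGen s := by
  obtain ⟨w, rfl, hw⟩ := kap_pos h
  have := tp_prod (g := ρ) (w ++ [s]) (by rw [length_append, length_singleton]; omega)
  rw [tp_prod w (by omega)]
  simpa using this

theorem step_up {s s' : Lab} (h : s ≠ s') {y : Tr} (hy : y.2.1.head? = some s) :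
    (trGen s' y).2.1 = s' :: y.2.1 := by
  obtain ⟨b, w, hw⟩ := y
  cases w with
  | nil => simp at hy
  | cons a w =>
    have ha : a = s := by simpa using hy
    subst ha
    change (trAct s' _).2.1 = _
    rw [trAct, if_neg (by simp), if_neg (by simp [h])]
    simp [act, h]

theorem step_cases (s : Lab) (y : Tr) : (trGen s y).2.1.head? = some s ∨
    (trGen s y).2.1.length + 1 = y.2.1.length ∨
    (lab y.1 s ∧ y.2.1 = [] ∧ trGen s y = (y.1.map (nb s.1), y.2)) := by
  obtain ⟨b, w, hw⟩ := y
  change (trAct s _).2.1.head? = _ ∨ (trAct s _).2.1.length + 1 = _ ∨ _ ∧ _ ∧ trAct s _ = _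
  unfold trAct
  split_ifs with h1 h2
  · exact Or.inr (Or.inr ⟨h1.1, h1.2, rfl⟩)
  · left
    rw [h2.2]
    rfl
  · cases w with
    | nil => left; rfl
    | cons a w =>
      by_cases ha : a = s
      · right; left
        simp [act, ha]
      · left
        simp [act, ha]

theorem bad_of_walk {ρ g : ℕ} {Cs : Finset Core} (v : ℕ → Core) (α : ℕ → Tr) (τ : ℕ → Fin 3)
    (hτ : ∀ j, τ j ≠ τ (j + 1)) (hv : ∀ j, v (j + 1) = nb (τ j) (v j))
    (hα : ∀ j, α (j + 1) = trGen (τ j, col (v j) (τ j)) (α j))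
    (hd : ∀ j, (α j).2.1.length ≤ ρ) (hC : ∀ j c, (α j).1 = some c → c ∈ Cs) :
    Bad Cs g (v ρ) := by
  have hup : ∀ j, (α (j + 1)).2.1.head? ≠ some (τ j, col (v j) (τ j)) := by
    intro j hj
    have : ∀ n, (α (j + n + 1)).2.1.head? = some (τ (j + n), col (v (j + n)) (τ (j + n))) ∧
        n ≤ (α (j + n + 1)).2.1.length := by
      intro n
      induction n with
      | zero => exact ⟨hj, Nat.zero_le _⟩
      | succ n ih =>
        have e := step_up (s' := (τ (j + n + 1), col (v (j + n + 1)) (τ (j + n + 1))))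
          (fun h => hτ _ (congrArg Prod.fst h)) ih.1
        rw [← hα] at e
        rw [← add_assoc, e]
        exact ⟨rfl, by rw [length_cons]; omega⟩
    have h1 := (this (ρ + 1)).2
    have h2 := hd (j + (ρ + 1) + 1)
    omega
  have hdep : ∀ j, (α j).2.1.length ≤ ρ - j := by
    intro j
    induction j with
    | zero => exact hd 0
    | succ j ih =>
      rcases step_cases (τ j, col (v j) (τ j)) (α j) with h | h | ⟨-, h2, h3⟩
      · exact absurd (hα j ▸ h) (hup j)
      · rw [← hα] at h
        omega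
      · rw [hα, h3, h2]
        simp
  have hcore : ∀ n, lab (α (ρ + n)).1 (τ (ρ + n), col (v (ρ + n)) (τ (ρ + n))) ∧
      (α (ρ + n + 1)).1 = (α (ρ + n)).1.map (nb (τ (ρ + n))) := by
    intro n
    rcases step_cases (τ (ρ + n), col (v (ρ + n)) (τ (ρ + n))) (α (ρ + n)) with h | h | ⟨h1, -, h3⟩
    · exact absurd (hα _ ▸ h) (hup _)
    · have := hdep (ρ + n)
      omega
    · exact ⟨h1, by rw [hα, h3]⟩
  obtain ⟨b, hb, -⟩ := (hcore 0).1
  have hw : ∀ n, v (ρ + n) = walk (v ρ) (fun j => τ (ρ + j)) n ∧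
      (α (ρ + n)).1 = some (walk b (fun j => τ (ρ + j)) n) := by
    intro n
    induction n with
    | zero => exact ⟨rfl, hb⟩
    | succ n ih =>
      refine ⟨by rw [← add_assoc, hv, ih.1]; rfl, ?_⟩
      rw [← add_assoc, (hcore n).2, ih.2]
      rfl
  refine ⟨b, hC ρ b hb, fun j => τ (ρ + j), fun j => hτ _, fun j _ => ?_⟩
  obtain ⟨c, h1, h2⟩ := (hcore j).1
  rw [(hw j).2] at h1
  rw [← (hw j).1, Option.some.inj h1]
  exact h2.symm

end Vale.Agent.P090
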