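import Mathlib

open List

namespace Vale.Agent.P090

variable {S : Type} [DecidableEq S]

/-- Left multiplication by an involutive generator on words. -/
def act (s : S) : List S → List S
  | [] => [s]
  | a :: w => if a = s then w else s :: a :: w

theorem act_chain (s : S) {w : List S} (h : w.IsChain (· ≠ ·)) : (act s w).IsChain (· ≠ ·) := by
  cases w with
  | nil => exact List.IsChain.singleton _
  | cons a w =>
    rw [act]
    split_ifs with ha
    · exact h.tail
    · exact isChain_cons_cons.2 ⟨Ne.symm ha, h⟩

theorem act_act (s : S) {w : List S} (h : w.IsChain (· ≠ ·)) : act s (act s w) = w := by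
  cases w with
  | nil => simp [act]
  | cons a w =>
    by_cases ha : a = s
    · subst ha
      cases w with
      | nil => simp [act]
      | cons b w =>
        have := (isChain_cons_cons.1 h).1
        simp [act, Ne.symm this]
    · simp [act, ha]

theorem act_length_le (s : S) (w : List S) : (act s w).length ≤ w.length + 1 := by
  cases w with
  | nil => simp [act]
  | cons a w =>
    rw [act]
    split_ifs <;> simp only [length_cons] <;> omega

theorem act_of_chain {s : S} {w : List S} (h : (s :: w).IsChain (· ≠ ·)) : act s w = s :: w := by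
  cases w with
  | nil => rfl
  | cons a w => rw [act, if_neg (Ne.symm (isChain_cons_cons.1 h).1)]

/-- The reduced form of a word. -/
def red (w : List S) : List S := w.foldr act []

theorem red_length_le (w : List S) : (red w).length ≤ w.length := by
  induction w with
  | nil => simp [red]
  | cons s w ih =>
    have := act_length_le s (red w)
    change (act s (red w)).length ≤ w.length + 1
    omega

theorem red_of_chain {w : List S} (h : w.IsChain (· ≠ ·)) : red w = w := by
  induction w with
  | nil => rfl
  | cons s w ih =>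
    change act s (red w) = _
    rw [ih h.tail, act_of_chain h]

theorem prod_act {G : Type} [Group G] (R : S → G) (hR : ∀ s, R s * R s = 1) (s : S) (w : List S) :
    ((act s w).map R).prod = R s * (w.map R).prod := by
  cases w with
  | nil => simp [act]
  | cons a w =>
    rw [act]
    split_ifs with ha
    · subst ha
      rw [map_cons, prod_cons, ← mul_assoc, hR, one_mul]
    · rfl

theorem prod_red {G : Type} [Group G] (R : S → G) (hR : ∀ s, R s * R s = 1) (w : List S) :
    ((red w).map R).prod = (w.map R).prod := by
  induction w with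
  | nil => rfl
  | cons s w ih =>
    change ((act s (red w)).map R).prod = _
    rw [prod_act R hR, ih, map_cons, prod_cons]

/-- Reduced words of bounded length. -/
abbrev Ball (S : Type) (g : ℕ) : Type := {w : List S // w.IsChain (· ≠ ·) ∧ w.length ≤ g}

instance [Finite S] (g : ℕ) : Finite (Ball S g) :=
  ((List.finite_length_le S g).subset fun _ h => h.2 :
    Set.Finite {w : List S | w.IsChain (· ≠ ·) ∧ w.length ≤ g}).to_subtype

/-- The truncated action on the ball. -/
def ballAct (g : ℕ) (s : S) (w : Ball S g) : Ball S g :=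
  if h : (act s w.1).length ≤ g then ⟨act s w.1, act_chain s w.2.1, h⟩ else w

theorem ballAct_invol (g : ℕ) (s : S) : Function.Involutive (ballAct g s) := by
  intro w
  by_cases h : (act s w.1).length ≤ g
  · have e : ballAct g s w = ⟨act s w.1, act_chain s w.2.1, h⟩ := dif_pos h
    have h2 : (act s (act s w.1)).length ≤ g := by rw [act_act s w.2.1]; exact w.2.2
    rw [e, ballAct, dif_pos h2]
    exact Subtype.ext (act_act s w.2.1)
  · have e : ballAct g s w = w := dif_neg h
    rw [e, e]

/-- The finite group of large girth. -/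
abbrev Grp (S : Type) (g : ℕ) : Type := Equiv.Perm (Ball S g)

/-- The involutive generators. -/
def gen (g : ℕ) (s : S) : Grp S g := (ballAct_invol g s).toPerm _

theorem gen_mul_self (g : ℕ) (s : S) : gen g s * gen g s = 1 :=
  Equiv.ext fun w => ballAct_invol g s w

theorem gen_gen (g : ℕ) (s : S) (q : Grp S g) : gen g s * (gen g s * q) = q := by
  rw [← mul_assoc, gen_mul_self, one_mul]

/-- The word read off from a group element. -/
def wd {g : ℕ} (q : Grp S g) : List S := (q ⟨[], List.IsChain.nil, Nat.zero_le _⟩).1

theorem wd_prod {g : ℕ} (w : List S) (h : w.length ≤ g) : wd (w.map (gen g)).prod = red w := by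
  induction w with
  | nil => rfl
  | cons s w ih =>
    have h1 := ih (by simp only [length_cons] at h; omega)
    have h2 := act_length_le s (red w)
    have h3 := red_length_le w
    rw [map_cons, prod_cons]
    change (ballAct g s ((w.map (gen g)).prod ⟨[], List.IsChain.nil, Nat.zero_le _⟩)).1 = act s (red w)
    unfold wd at h1
    rw [ballAct, dif_pos (by rw [h1]; simp only [length_cons] at h; omega)]
    simp only [h1]

/-- The truncated co-length of a group element. -/
noncomputable def kap (ρ : ℕ) {g : ℕ} (q : Grp S g) : ℕ :=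
  sSup {n | ∃ w : List S, (w.map (gen g)).prod = q ∧ n = ρ - w.length}

theorem kap_bdd (ρ : ℕ) {g : ℕ} (q : Grp S g) :
    BddAbove {n | ∃ w : List S, (w.map (gen g)).prod = q ∧ n = ρ - w.length} :=
  ⟨ρ, by rintro _ ⟨w, -, rfl⟩; omega⟩

theorem le_kap (ρ : ℕ) {g : ℕ} (w : List S) : ρ - w.length ≤ kap ρ (w.map (gen g)).prod :=
  le_csSup (kap_bdd ρ _) ⟨w, rfl, rfl⟩

theorem kap_pos {ρ g : ℕ} {q : Grp S g} (h : 0 < kap ρ q) :
    ∃ w : List S, (w.map (gen g)).prod = q ∧ kap ρ q + w.length = ρ := by
  have hne : {n | ∃ w : List S, (w.map (gen g)).prod = q ∧ n = ρ - w.length}.Nonempty := by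
    by_contra h0
    rw [kap, Set.not_nonempty_iff_eq_empty.1 h0] at h
    simp at h
  obtain ⟨w, h1, h2⟩ := Nat.sSup_mem hne (kap_bdd ρ q)
  refine ⟨w, h1, ?_⟩
  change kap ρ q = _ at h2
  omega

theorem kap_le (ρ : ℕ) {g : ℕ} (q : Grp S g) : kap ρ q ≤ ρ := by
  rcases Nat.eq_zero_or_pos (kap ρ q) with h | h
  · omega
  · obtain ⟨w, -, h2⟩ := kap_pos h
    omega

theorem kap_one (ρ g : ℕ) : kap ρ (1 : Grp S g) = ρ :=
  le_antisymm (kap_le _ _) (le_kap ρ (g := g) ([] : List S))

theorem kap_left (ρ : ℕ) {g : ℕ} (s : S) (q : Grp S g) : kap ρ q ≤ kap ρ (gen g s * q) + 1 := by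
  rcases Nat.eq_zero_or_pos (kap ρ q) with h | h
  · omega
  · obtain ⟨w, rfl, h2⟩ := kap_pos h
    have := le_kap ρ (g := g) (s :: w)
    rw [map_cons, prod_cons, length_cons] at this
    omega

theorem kap_right (ρ : ℕ) {g : ℕ} (s : S) (q : Grp S g) : kap ρ q ≤ kap ρ (q * gen g s) + 1 := by
  rcases Nat.eq_zero_or_pos (kap ρ q) with h | h
  · omega
  · obtain ⟨w, rfl, h2⟩ := kap_pos h
    have := le_kap ρ (g := g) (w ++ [s])
    rw [map_append, prod_append, length_append] at this
    simp only [map_cons, map_nil, prod_cons, prod_nil, mul_one, length_cons, length_nil] at this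
    omega

end Vale.Agent.P090
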